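import Vale.Agent.P213.Main.Q1

/-!
P213, Q1: the Thomason model structure on strict n-categories and omega-categories.
-/

namespace Vale.Agent.Results.P213.ThomasonNCat

theorem result : Vale.Agent.P213.Q1 := Vale.Agent.P213.q1

end Vale.Agent.Results.P213.ThomasonNCat
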